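import Vale.Agent.P281.H511.Surf.Defs

/-!
# P281: a fibration is linked to itself
-/

open Set Filter
open Vale.Agent.P281 Vale.Agent.P281.H713.TZ.S
open Vale.Agent.P281.H511.Surf (IsFibration IsFibre)
open scoped Manifold ContDiff Topology

noncomputable section

namespace Vale.Agent.P281.H64.StatV

section
variable {E : Type} [NormedAddCommGroup E] [NormedSpace ℂ E] {X : Type} [TopologicalSpace X]
  [ChartedSpace E X]

theorem isModif_id [T2Space X] [IsManifold 𝓘(ℂ, E) ω X] : IsModif E (id : X → X) :=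
  ⟨⟨inferInstance, inferInstance, inferInstance, inferInstance⟩, contMDiff_id,
    Homeomorph.isProperMap (Homeomorph.refl X),
    univ, isOpen_univ, dense_univ, by simp, fun x _ => ⟨x, rfl, fun y hy => hy⟩⟩

theorem orbMor_id {Δ : Set X → ℝ} (h : J.IsSNC E Δ) : OrbMor E E (id : X → X) Δ Δ := by
  classical
  intro z G g e w k hG hg he hez hde hw hwz hk heq
  have h0 : ∀ D, 0 ≤ Δ D ∧ Δ D ≤ 1 := fun D => by
    obtain ⟨q, h1, h2, h3⟩ := h.2.2.1 D
    rw [h1]; exact ⟨by exact_mod_cast h2, by exact_mod_cast h3⟩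
  have hz : z ∈ G := by
    obtain ⟨V, -, hz, -, hV, -⟩ := hg
    refine (hV z hz).2 ?_
    have := heq.self_of_nhds
    simp only [id] at this
    rw [this, hez, zero_pow hk.ne', zero_mul]
  have hfin : (fun D : Set X => Δ D).support.Finite := h.1
  have h1 : Δ G ≤ ∑ᶠ (D : Set X) (_ : z ∈ D), Δ D := by
    have hf2 : (Function.support fun D : Set X => ∑ᶠ (_ : z ∈ D), Δ D).Finite := by
      refine hfin.subset fun D hD => ?_
      simp only [Function.mem_support] at hD ⊢
      intro h2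
      apply hD
      rw [h2]
      simp
    have h2 : (∑ᶠ (_ : z ∈ G), Δ G) ≤ ∑ᶠ (D : Set X) (_ : z ∈ D), Δ D :=
      single_le_finsum G hf2 fun D => finsum_nonneg fun _ => (h0 D).1
    rwa [finsum_eq_if, if_pos hz] at h2
  have h3 : (1 : ℝ) ≤ k := by exact_mod_cast hk
  have h4 : 0 ≤ 1 - Δ G := by linarith [(h0 G).2]
  nlinarith

end

theorem isStep_refl {n p : ℕ} {X Y : Type} [TopologicalSpace X] [ChartedSpace (Cm n) X]
    [TopologicalSpace Y] [ChartedSpace (Cm p) Y] {f : X → Y} {Δ : Set X → ℝ}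
    (h : IsFibration (Cm n) (Cm p) f Δ) : IsStep (Cm n) (Cm p) f Δ f Δ := by
  obtain ⟨⟨_, _⟩, _, _, ⟨_, _⟩, hf, hc, hΔ⟩ := h
  refine ⟨id, id, isModif_id, isModif_id, fun _ => rfl, hf, hf, hΔ, hΔ, fun D _ _ => ?_,
    orbMor_id hΔ⟩
  rw [image_id]

end Vale.Agent.P281.H64.StatV
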