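import Vale.Agent.P272.K.Stmt
import Vale.Agent.P281.H511.Surf.Defs
import Vale.Agent.P281.H64.Thin.Defs

/-!
# P281: definitions for the statement on Kähler fibrations and Gauss maps of étale coverings
-/

open Set
open Vale.Agent.P272.K (Chart IsKahler)
open Vale.Agent.P281 Vale.Agent.P281.H713.TZ.S
open Vale.Agent.P281.H511.Surf (IsFibration IsFibre)
open Vale.Agent.P281.H64.Thin (IsThinSet)
open scoped Manifold ContDiff Topology

noncomputable section

namespace Vale.Agent.P281.H64.StatV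

section
variable {d : ℕ} {F : Type} [TopologicalSpace F] [ChartedSpace (Cm d) F]

/-- `φ` is, near `x`, a primitive of a closed holomorphic 1-form `η` of `F` (`η` is locally the
differential of a holomorphic function). -/
def IsPrim (φ : F → ℂ) (x : F) : Prop :=
  J.HolAt (Cm d) φ x ∧ ∃ η : F → (Cm d →L[ℂ] ℂ), (∀ᶠ z in 𝓝 x, η z = J.dif (Cm d) φ z) ∧
    ∀ x', ∃ ψ : F → ℂ, J.HolAt (Cm d) ψ x' ∧ ∀ᶠ z in 𝓝 x', η z = J.dif (Cm d) ψ z

/-- The coefficient of `dφ_1 ∧ ⋯ ∧ dφ_d` in the chart of `F` at `x`. -/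
def coef (x : F) (φ : Fin d → F → ℂ) (v : Cm d) : ℂ :=
  (Matrix.of fun a b => fderiv ℂ (fun u => φ a ((chartAt (Cm d) x).symm u)) v
    (Pi.single b 1)).det

/-- The Gauss map of `F`, given by the products `s = η_1 ∧ ⋯ ∧ η_d` of closed holomorphic 1-forms
(sections of `K_F`), has rank at least `r` at some point: there are `s_0, …, s_r` with `s_0 ≠ 0` and
`(s_1 / s_0, …, s_r / s_0)` submersive at `x`. -/
def GaussRank (d : ℕ) (F : Type) [TopologicalSpace F] [ChartedSpace (Cm d) F] (r : ℕ) : Prop :=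
  ∃ (x : F) (φ : Fin (r + 1) → Fin d → F → ℂ), (∀ k a, IsPrim (d := d) (φ k a) x) ∧
    coef x (φ 0) (chartAt (Cm d) x x) ≠ 0 ∧ Function.Surjective fun (ξ : Cm d) (k : Fin r) =>
      fderiv ℂ (fun v => coef x (φ k.succ) v / coef x (φ 0) v) (chartAt (Cm d) x x) ξ

/-- The closed holomorphic 1-forms of `F` generate its cotangent spaces (that is, if `F` is compact:
`F` is immersed in a complex torus). -/
def IsGen (d : ℕ) (F : Type) [TopologicalSpace F] [ChartedSpace (Cm d) F] : Prop :=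
  ∀ (x : F) (v : Cm d), v ≠ 0 → ∃ η : F → (Cm d →L[ℂ] ℂ), (∀ x', ∃ ψ : F → ℂ,
    J.HolAt (Cm d) ψ x' ∧ ∀ᶠ z in 𝓝 x', η z = J.dif (Cm d) ψ z) ∧ η x v ≠ 0

/-- Some closed holomorphic 1-forms `η_1, …, η_d` of `F` are a basis of its cotangent spaces (that
is, if `F` is compact: `F` is a complex torus). -/
def IsTorus (d : ℕ) (F : Type) [TopologicalSpace F] [ChartedSpace (Cm d) F] : Prop :=
  ∃ η : Fin d → F → (Cm d →L[ℂ] ℂ), (∀ a x, ∃ ψ : F → ℂ, J.HolAt (Cm d) ψ x ∧
    ∀ᶠ z in 𝓝 x, η a z = J.dif (Cm d) ψ z) ∧ ∀ x v, (∀ a, η a x v = 0) → v = 0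

/-- `π : F' → F` is a finite étale covering of the compact connected manifold `F` by a compact
connected manifold: a holomorphic immersion in `F`, the fibre of `F → {pt}`. -/
def IsCover (d : ℕ) {F' F : Type} [TopologicalSpace F'] [ChartedSpace (Cm d) F']
    [TopologicalSpace F] [ChartedSpace (Cm d) F] (π : F' → F) : Prop :=
  T2Space F' ∧ IsFibre (Cm d) (Cm d) (fun _ : F => ()) () π

/-- Some finite étale covering `F'` of `F` has a Gauss map of rank at least `r`. -/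
def CovRank (d : ℕ) (F : Type) [TopologicalSpace F] [ChartedSpace (Cm d) F] (r : ℕ) : Prop :=
  ∃ (F' : Type) (_ : TopologicalSpace F') (_ : ChartedSpace (Cm d) F') (π : F' → F),
    IsCover d π ∧ GaussRank d F' r

end

section
variable {n p d : ℕ} {X Y F : Type} [tX : TopologicalSpace X] [cX : ChartedSpace (Cm n) X]
  [tY : TopologicalSpace Y] [cY : ChartedSpace (Cm p) Y] [TopologicalSpace F]
  [ChartedSpace (Cm d) F]

/-- Some finite étale covering `F'` of `F` has a Gauss map of rank at least `κ(F, K_F + Δ|F)` (for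
instance of rank `d`), or is immersed in a complex torus, `F` being disjoint from `Δ`, or is a complex
torus, if `T` holds. -/
def Cond (n d : ℕ) {X F : Type} [TopologicalSpace X] [ChartedSpace (Cm n) X]
    [TopologicalSpace F] [ChartedSpace (Cm d) F] (i : F → X) (Δ : Set X → ℝ) (T : Prop) : Prop :=
  ∃ (F' : Type) (_ : TopologicalSpace F') (_ : ChartedSpace (Cm d) F') (π : F' → F),
    IsCover d π ∧ (GaussRank d F' d ∨ (IsGen d F' ∧ ∀ D, Δ D ≠ 0 → ∀ t, i t ∉ D) ∨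
      (IsTorus d F' ∧ T) ∨
      ∃ r : ℕ, GaussRank d F' r ∧ kodR (Cm n) (Cm d) i Δ ≤ ((r : ℕ∞) : WithBot ℕ∞))

/-- For the fibres `F` of `f` over the points of `Y` off countably many thin closed sets `H_j`:
`κ(X, K_X + Δ) ≥ r + k` if `CovRank`, and `κ(X, K_X + Δ) ≥ κ(F, K_F + Δ|F) + k` if `Cond`. -/
def ForFibres (n p d : ℕ) {X Y : Type} [TopologicalSpace X] [ChartedSpace (Cm n) X]
    [TopologicalSpace Y] [ChartedSpace (Cm p) Y] (f : X → Y) (Δ : Set X → ℝ)
    (k : WithBot ℕ∞) (T : Prop) : Prop :=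
  ∃ H : ℕ → Set Y, (∀ j, IsThinSet (Cm p) (H j)) ∧ ∀ y, (∀ j, y ∉ H j) →
    ∀ (F : Type) [TopologicalSpace F] [T2Space F] [ChartedSpace (Cm d) F] (i : F → X),
      IsFibre (Cm n) (Cm d) f y i →
      (∀ r : ℕ, CovRank d F r → ((r : ℕ∞) : WithBot ℕ∞) + k ≤ kodX (Cm n) Δ) ∧
      (Cond n d i Δ T → kodR (Cm n) (Cm d) i Δ + k ≤ kodX (Cm n) Δ)

/-- No exceptional divisors: the prime divisors `D` of `X` are mapped onto `Y` or prime divisors. -/
def NoExc (n p : ℕ) {X Y : Type} [TopologicalSpace X] [ChartedSpace (Cm n) X]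
    [TopologicalSpace Y] [ChartedSpace (Cm p) Y] (f : X → Y) : Prop :=
  ∀ D, J.IsPrime (Cm n) D → closure (f '' D) = univ ∨ J.IsPrime (Cm p) (closure (f '' D))

/-- The exceptional prime divisors `D` of `f` have coefficient `1` in `Δ`, and `B(f, Δ)` has simple
normal crossings. -/
def ExcOne (n p : ℕ) {X Y : Type} [TopologicalSpace X] [ChartedSpace (Cm n) X]
    [TopologicalSpace Y] [ChartedSpace (Cm p) Y] (f : X → Y) (Δ : Set X → ℝ) : Prop :=
  (∀ D, J.IsPrime (Cm n) D → closure (f '' D) = univ ∨ J.IsPrime (Cm p) (closure (f '' D)) ∨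
    Δ D = 1) ∧ ∀ y, SNCAt (Cm p) (base (Cm n) (Cm p) f Δ) y

/-- `f₁ : (X₁, Δ₁) → Y₁` is a model of `f : (X, Δ) → Y`: a fibration with a commutative square
`f ∘ u = v ∘ f₁` as in the problem (`f₁ = f` is one). -/
def IsModel (n p : ℕ) {X Y X₁ Y₁ : Type} [TopologicalSpace X] [ChartedSpace (Cm n) X]
    [TopologicalSpace Y] [ChartedSpace (Cm p) Y] [TopologicalSpace X₁] [ChartedSpace (Cm n) X₁]
    [TopologicalSpace Y₁] [ChartedSpace (Cm p) Y₁] (f₁ : X₁ → Y₁) (Δ₁ : Set X₁ → ℝ) (f : X → Y)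
    (Δ : Set X → ℝ) : Prop :=
  IsFibration (Cm n) (Cm p) f₁ Δ₁ ∧ IsStep (Cm n) (Cm p) f₁ Δ₁ f Δ

/-- The complex manifold `X` has a Kähler metric. -/
def Kahler (n : ℕ) (X : Type) [TopologicalSpace X] [ChartedSpace (Cm n) X] : Prop :=
  ∃ w : Chart n X → Cm n → Matrix (Fin n) (Fin n) ℂ, IsKahler w

end

end Vale.Agent.P281.H64.StatV
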